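import Vale.Agent.P353.H121.Fin

open MeasureTheory Filter Topology Vale.Agent.P353.BFSS
open scoped ContDiff

/-- The threshold-bound-state theorem in classical form: for every `N ≥ 2` the data of the `SU(N)` BFSS matrix
model exist, and for all such data there is a normalized `C^∞` solution `Φ` of the sixteen equations
`Q_α Φ = 0`, `SU(N)`-invariant at every point, with `ker H_N = ℂ Φ`; every physical wave function that solves
one of the sixteen equations in the sense of distributions is a multiple of `Φ`; `Φ` has definite fermion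
parity; `Φ` is the limit of classical vacua of the mass-deformed models; for every real `m` the physical
distributional solutions of `Q_α^{(m)} Ψ = 0`, `1 ≤ α ≤ 16`, are exactly the elements of `ker H_{N,m}`; and for
every `m > 0` this kernel has a basis of `p(N)` classical vacua. -/
theorem Vale.Agent.Results.P353.ClassicalVacua.result {N : ℕ} (hN : 2 ≤ N) :
    (∃ (F : Type) (_ : NormedAddCommGroup F) (_ : InnerProductSpace ℂ F), Nonempty (Model N (N ^ 2 - 1) F)) ∧
    ∀ (d : ℕ) (F : Type*) [NormedAddCommGroup F] [InnerProductSpace ℂ F] (M : Model N d F),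
      (∃ Φ : Conf d → F, ContDiff ℝ ∞ Φ ∧ MemLp Φ 2 (leb d) ∧ ∫ x, ‖Φ x‖ ^ 2 ∂leb d = 1 ∧
        (∀ U x, Φ (M.act U x) = M.S U (Φ x)) ∧ (∀ α x, M.Q α Φ x = 0) ∧
        (∀ Ψ, M.IsZeroEnergyState Ψ ↔ IsMultiple Φ Ψ) ∧
        (∀ α Ψ, M.IsPhysical Ψ → M.IsDistSolution 0 α Ψ → IsMultiple Φ Ψ) ∧
        M.IsEven Φ ∧ M.IsMasslessLimit Φ) ∧
      (∀ m Ψ, (M.IsPhysical Ψ ∧ ∀ α, M.IsDistSolution m α Ψ) ↔ M.IsGroundState m Ψ) ∧
      ∀ m : ℝ, 0 < m →
        ∃ Φ : Fin (Fintype.card (Nat.Partition N)) → Conf d → F, M.IsVacuumBasis m Φ :=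
  ⟨(Vale.Agent.P353.Z.AFinal.oneX.{0} hN).1, fun _ _ _ _ M => ⟨Vale.Agent.P353.H121.full hN M,
    fun _ _ => (Vale.Agent.P353.H121.ground_iff M).symm,
    fun _ hm => Vale.Agent.P353.H121.basis hN M hm⟩⟩
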