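import Vale.Agent.P353.H48.Main

open MeasureTheory Filter Topology Vale.Agent.P353.BFSS

/-- The threshold-bound-state theorem for the whole mass-deformed family: for every `N ≥ 2` the data of the
`SU(N)` BFSS matrix model exist, and for all such data `dim ker H_N = 1`; `ker H_{N,0} = ker H_N`; for every
mass `m > 0` the plane-wave deformation has `dim ker H_{N,m} = p(N)`, the number of partitions of `N`; and the
threshold bound state is the `L²` limit of ground states of `H_{N,m}` as `m → 0`. -/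
theorem Vale.Agent.Results.P353.PlaneWave.result {N : ℕ} (hN : 2 ≤ N) :
    (∃ (F : Type) (_ : NormedAddCommGroup F) (_ : InnerProductSpace ℂ F), Nonempty (Model N (N ^ 2 - 1) F)) ∧
    ∀ (d : ℕ) (F : Type*) [NormedAddCommGroup F] [InnerProductSpace ℂ F] (M : Model N d F),
      (∃ Φ : Conf d → F, M.IsZeroEnergyState Φ ∧ ¬ (∀ᵐ x ∂leb d, Φ x = 0) ∧
        ∀ Ψ, M.IsZeroEnergyState Ψ → ∃ c : ℂ, ∀ᵐ x ∂leb d, Ψ x = c • Φ x) ∧
      (∀ Ψ : Conf d → F, M.IsGroundState 0 Ψ ↔ M.IsZeroEnergyState Ψ) ∧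
      (∀ m : ℝ, 0 < m → ∃ Φ : Fin (Fintype.card (Nat.Partition N)) → Conf d → F,
        (∀ j, M.IsGroundState m (Φ j)) ∧
        (∀ c : Fin (Fintype.card (Nat.Partition N)) → ℂ, (∀ᵐ x ∂leb d, ∑ j, c j • Φ j x = 0) → c = 0) ∧
        ∀ Ψ, M.IsGroundState m Ψ → ∃ c : Fin (Fintype.card (Nat.Partition N)) → ℂ,
          ∀ᵐ x ∂leb d, Ψ x = ∑ j, c j • Φ j x) ∧
      ∀ Φ : Conf d → F, M.IsZeroEnergyState Φ → ∃ Ψ : ℝ → Conf d → F,
        (∀ m : ℝ, 0 < m → M.IsGroundState m (Ψ m)) ∧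
        Tendsto (fun m : ℝ => ∫ x, ‖Ψ m x - Φ x‖ ^ 2 ∂leb d) (𝓝[>] 0) (𝓝 0) :=
  have h := Vale.Agent.P353.Z.AFinal.oneX hN
  ⟨h.1, fun d F _ _ M => ⟨h.2 d F M, Vale.Agent.P353.H48.zero_iff hN M,
    fun _ hm => Vale.Agent.P353.H48.count_pos hN M hm, fun _ hΦ => Vale.Agent.P353.H48.massless hN M hΦ⟩⟩
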