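import Vale.Agent.P353.H451.Main

open MeasureTheory Vale.Agent.P353.BFSS

/-- The threshold-bound-state theorem with the Witten index. For every `N ≥ 2` the data of the
`SU(N)` BFSS matrix model exist, and for all such data: `dim ker H_N = 1`; the plane-wave
deformation has `dim ker H_{N,m} = p(N)` for all `m > 0`; there is a fermion parity, unique up to
sign and equal to the rotation by `2 π` in every plane, for which all these states are even, so
that the Witten index is `1` for `m = 0` and `p(N)` for `m > 0`; the zero-energy states are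
`Spin(9)`-invariant and the ground states for `m > 0` are `Spin(3) × Spin(6)`-invariant. -/
theorem Vale.Agent.Results.P353.WittenIndex.result {N : ℕ} (hN : 2 ≤ N) :
    (∃ (F : Type) (_ : NormedAddCommGroup F) (_ : InnerProductSpace ℂ F), Nonempty (Model N (N ^ 2 - 1) F)) ∧
    ∀ (d : ℕ) (F : Type*) [NormedAddCommGroup F] [InnerProductSpace ℂ F] (M : Model N d F),
      HasDim M.IsZeroEnergyState 1 ∧
      (∀ m : ℝ, 0 < m → HasDim (M.IsGroundState m) (Fintype.card (Nat.Partition N))) ∧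
      (∃ P : F →L[ℂ] F, M.IsParity P ∧ (∀ P', M.IsParity P' → P' = P ∨ P' = -P) ∧
        (∀ k l : Fin 9, k ≠ l → M.spinRot k l (2 * Real.pi) = P) ∧
        (∀ Ψ, M.IsZeroEnergyState Ψ → ∀ᵐ x ∂leb d, P (Ψ x) = Ψ x) ∧
        (∀ m : ℝ, 0 < m → ∀ Ψ, M.IsGroundState m Ψ → ∀ᵐ x ∂leb d, P (Ψ x) = Ψ x) ∧
        HasWittenIndex P M.IsZeroEnergyState 1 ∧
        ∀ m : ℝ, 0 < m → HasWittenIndex P (M.IsGroundState m) (Fintype.card (Nat.Partition N))) ∧
      (∀ Ψ, M.IsZeroEnergyState Ψ → ∀ k l : Fin 9, k ≠ l → M.RotInvariant k l Ψ) ∧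
      ∀ m : ℝ, 0 < m → ∀ Ψ, M.IsGroundState m Ψ → ∀ k l : Fin 9, k ≠ l →
        (k.val < 3 ↔ l.val < 3) → M.RotInvariant k l Ψ :=
  have h := Vale.Agent.P353.Z.AFinal.oneX hN
  ⟨h.1, fun d F _ _ M => Vale.Agent.P353.H451.main hN M (h.2 d F M)⟩
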